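import Vale.Agent.P237.Quant.TailData.N66.tailN66N0Part0
import Vale.Agent.P237.Quant.TailData.N66.tailN66N0Part1
import Vale.Agent.P237.Quant.TailData.N66.tailN66N0Part2
import Vale.Agent.P237.Quant.TailData.N66.tailN66N0Part3
import Vale.Agent.P237.Quant.TailData.N66.tailN66N0Part4
import Vale.Agent.P237.Quant.TailData.N66.tailN66N0Part5

/-!
Tail calibration tailN66N0 in dimension 66. The check. Generated data, checked by the kernel.
-/

set_option maxRecDepth 100000
set_option linter.all false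

namespace Vale.Agent.P237.Quant.TailData

open TailCert


/-- The calibration. -/
noncomputable def tailN66N0 : Cfg :=
  tailN66N0Base.withIvals (List.flatten [tailN66N0L0, tailN66N0L1, tailN66N0L2, tailN66N0L3, tailN66N0L4, tailN66N0L5, tailN66N0L6, tailN66N0L7, tailN66N0L8, tailN66N0L9, tailN66N0L10, tailN66N0L11, tailN66N0L12, tailN66N0L13, tailN66N0L14, tailN66N0L15, tailN66N0L16, tailN66N0L17, tailN66N0L18, tailN66N0L19, tailN66N0L20, tailN66N0L21, tailN66N0L22, tailN66N0L23])

theorem tailN66N0_parts : [tailN66N0L0, tailN66N0L1, tailN66N0L2, tailN66N0L3, tailN66N0L4, tailN66N0L5, tailN66N0L6, tailN66N0L7, tailN66N0L8, tailN66N0L9, tailN66N0L10, tailN66N0L11, tailN66N0L12, tailN66N0L13, tailN66N0L14, tailN66N0L15, tailN66N0L16, tailN66N0L17, tailN66N0L18, tailN66N0L19, tailN66N0L20, tailN66N0L21, tailN66N0L22, tailN66N0L23].Forall fun l => tailN66N0Base.partUsed tailN66N0Used l = true := by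
  simp only [List.forall_cons, List.Forall]
  exact ⟨tailN66N0L0_ok, tailN66N0L1_ok, tailN66N0L2_ok, tailN66N0L3_ok, tailN66N0L4_ok, tailN66N0L5_ok, tailN66N0L6_ok, tailN66N0L7_ok, tailN66N0L8_ok, tailN66N0L9_ok, tailN66N0L10_ok, tailN66N0L11_ok, tailN66N0L12_ok, tailN66N0L13_ok, tailN66N0L14_ok, tailN66N0L15_ok, tailN66N0L16_ok, tailN66N0L17_ok, tailN66N0L18_ok, tailN66N0L19_ok, tailN66N0L20_ok, tailN66N0L21_ok, tailN66N0L22_ok, tailN66N0L23_ok⟩

theorem tailN66N0_check : tailN66N0.check = true :=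
  Cfg.check_of_parts (by decide +kernel) tailN66N0_parts

end Vale.Agent.P237.Quant.TailData
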