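import Vale.Agent.P237.Quant.TailData.N66.tailN66P2Part0
import Vale.Agent.P237.Quant.TailData.N66.tailN66P2Part1
import Vale.Agent.P237.Quant.TailData.N66.tailN66P2Part2
import Vale.Agent.P237.Quant.TailData.N66.tailN66P2Part3
import Vale.Agent.P237.Quant.TailData.N66.tailN66P2Part4

/-!
Tail calibration tailN66P2 in dimension 66. The check. Generated data, checked by the kernel.
-/

set_option maxRecDepth 100000
set_option linter.all false

namespace Vale.Agent.P237.Quant.TailData

open TailCert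


/-- The calibration. -/
noncomputable def tailN66P2 : Cfg :=
  tailN66P2Base.withIvals (List.flatten [tailN66P2L0, tailN66P2L1, tailN66P2L2, tailN66P2L3, tailN66P2L4, tailN66P2L5, tailN66P2L6, tailN66P2L7, tailN66P2L8, tailN66P2L9, tailN66P2L10, tailN66P2L11, tailN66P2L12, tailN66P2L13, tailN66P2L14, tailN66P2L15, tailN66P2L16, tailN66P2L17])

theorem tailN66P2_parts : [tailN66P2L0, tailN66P2L1, tailN66P2L2, tailN66P2L3, tailN66P2L4, tailN66P2L5, tailN66P2L6, tailN66P2L7, tailN66P2L8, tailN66P2L9, tailN66P2L10, tailN66P2L11, tailN66P2L12, tailN66P2L13, tailN66P2L14, tailN66P2L15, tailN66P2L16, tailN66P2L17].Forall fun l => tailN66P2Base.partUsed tailN66P2Used l = true := by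
  simp only [List.forall_cons, List.Forall]
  exact ⟨tailN66P2L0_ok, tailN66P2L1_ok, tailN66P2L2_ok, tailN66P2L3_ok, tailN66P2L4_ok, tailN66P2L5_ok, tailN66P2L6_ok, tailN66P2L7_ok, tailN66P2L8_ok, tailN66P2L9_ok, tailN66P2L10_ok, tailN66P2L11_ok, tailN66P2L12_ok, tailN66P2L13_ok, tailN66P2L14_ok, tailN66P2L15_ok, tailN66P2L16_ok, tailN66P2L17_ok⟩

theorem tailN66P2_check : tailN66P2.check = true :=
  Cfg.check_of_parts (by decide +kernel) tailN66P2_parts

end Vale.Agent.P237.Quant.TailData
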